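import Vale.Agent.Lib.P213.Assemble
import Vale.Agent.Lib.P213.SdDwyer

/-!
# P213: the Ara-Maltsiniotis conjecture

For every `1 ≤ n ≤ ω` the classes `(C_n, W_n, F_n)` are a model structure on the category of
small strict `n`-categories, and `c_n Sd² ⊣ Ex² N_n` is a Quillen equivalence with the
Kan-Quillen model structure on simplicial sets.
-/

open CategoryTheory Limits Simplicial HomotopicalAlgebra

namespace Vale.Agent.Results.P213.Thomason

open Vale.Agent.P213

/-- An adjunction between model categories is a Quillen equivalence: the left adjoint preserves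
cofibrations and trivial cofibrations, and for `X` cofibrant and `Y` fibrant a map `F X ⟶ Y` is
a weak equivalence if and only if its adjunct `X ⟶ G Y` is one. -/
structure QuillenEquivalence {𝒞 𝒟 : Type*} [Category 𝒞] [ModelCategory 𝒞]
    [Category 𝒟] [ModelCategory 𝒟] {F : 𝒞 ⥤ 𝒟} {G : 𝒟 ⥤ 𝒞} (adj : F ⊣ G) : Prop where
  map_cofibration : ∀ {X Y : 𝒞} (i : X ⟶ Y), Cofibration i → Cofibration (F.map i)
  map_trivialCofibration : ∀ {X Y : 𝒞} (i : X ⟶ Y), Cofibration i → WeakEquivalence i →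
    WeakEquivalence (F.map i)
  weakEquivalence_iff : ∀ (X : 𝒞) (Y : 𝒟), IsCofibrant X → IsFibrant Y →
    ∀ f : F.obj X ⟶ Y, WeakEquivalence f ↔ WeakEquivalence (adj.homEquiv X Y f)

theorem result (n : ℕ∞) (hn : 1 ≤ n) :
    (streetNerve n).IsRightAdjoint ∧
    ∃ (_ : ModelCategory (NCat n)) (_ : ModelCategory SSet.{0}),
      (weakEquivalences (NCat n) = thomasonW n ∧ fibrations (NCat n) = thomasonF n ∧
        cofibrations (NCat n) = thomasonC n) ∧
      (weakEquivalences SSet.{0} = WeakEq ∧ fibrations SSet.{0} = KanFib ∧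
        cofibrations SSet.{0} = MorphismProperty.monomorphisms SSet.{0}) ∧
      ∀ (c : SSet.{0} ⥤ NCat n) (adj : c ⊣ streetNerve n),
        QuillenEquivalence ((SSet.sdExAdjunction.comp SSet.sdExAdjunction).comp adj) := by
  refine ⟨inferInstance, ?_⟩
  obtain ⟨⟨M, hW, hF, hC⟩, h⟩ := thomason_of_sdDwyer sdsd_dwyer n hn
  obtain ⟨K, hW', hF', hC'⟩ := SS.exists_kanQuillen
  refine ⟨M, K, ⟨hW, hF, hC⟩, ⟨hW', hF', hC'⟩, ?_⟩
  intro c adj
  obtain ⟨h1, h2, h3⟩ := h c adj
  refine ⟨?_, ?_, ?_⟩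
  · intro X Y i hi
    rw [cofibration_iff, hC'] at hi
    rw [cofibration_iff, hC]
    exact h1 i hi
  · intro X Y i hi hi'
    rw [cofibration_iff, hC'] at hi
    rw [weakEquivalence_iff, hW'] at hi'
    rw [weakEquivalence_iff, hW]
    exact h2 i hi hi'
  · intro X Y _ _ f
    rw [weakEquivalence_iff, weakEquivalence_iff, hW, hW']
    exact (h3 X Y f).trans Iff.rfl

end Vale.Agent.Results.P213.Thomason
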