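import Vale.Agent.Lib.P213G.Main
import Vale.Agent.Lib.P213G.Derived

/-!
# P213: the Ara-Maltsiniotis conjecture

Third form of the theorem: Mathlib's `ModelCategory`, weak homotopy equivalences of simplicial
sets by homotopy classes of maps to Kan complexes, and Quillen equivalences by total derived
functors.
-/

open CategoryTheory Limits MorphismProperty HomotopicalAlgebra

namespace Vale.Agent.Results.P213.ThomasonDerived

open Vale.Agent.P213G

/-- A map `f : X ⟶ Y` of simplicial sets is a weak homotopy equivalence: for each Kan complex `K`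
composition with `f` is a bijection `[Y, K] ⟶ [X, K]` of homotopy classes of maps (homotopies are
the maps `X ⊗ Δ[1] ⟶ K`; for a Kan complex `K` homotopy is an equivalence relation). -/
def WeakHomotopyEq : MorphismProperty SSet.{0} := fun X Y f =>
  ∀ (K : SSet.{0}) [SSet.KanComplex K],
    (∀ a : X ⟶ K, ∃ b : Y ⟶ K, Nonempty (SSet.Homotopy (f ≫ b) a)) ∧
    (∀ b b' : Y ⟶ K, Nonempty (SSet.Homotopy (f ≫ b) (f ≫ b')) → Nonempty (SSet.Homotopy b b'))

/-- Kan fibrations: the right lifting property against all horn inclusions. -/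
def IsKanFibration : MorphismProperty SSet.{0} := fun _ _ p =>
  ∀ (m : ℕ) (k : Fin (m + 2)), HasLiftingProperty (SSet.horn.{0} (m + 1) k).ι p

/-- An adjunction `F ⊣ G` between model categories is a Quillen equivalence: `F` preserves
cofibrations and trivial cofibrations, `G` preserves fibrations and trivial fibrations, and the
total derived functors of `F` and `G` exist and are equivalences between the homotopy categories
(the localizations at the weak equivalences).  We also record the usual criterion: for `X`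
cofibrant and `Y` fibrant a map `F X ⟶ Y` is a weak equivalence if and only if its adjunct is. -/
structure IsQuillenEquiv {𝒞 𝒟 : Type*} [Category 𝒞] [ModelCategory 𝒞] [Category 𝒟]
    [ModelCategory 𝒟] {F : 𝒞 ⥤ 𝒟} {G : 𝒟 ⥤ 𝒞} (adj : F ⊣ G) : Prop where
  map_cofibrations : cofibrations 𝒞 ≤ (cofibrations 𝒟).inverseImage F
  map_trivialCofibrations : trivialCofibrations 𝒞 ≤ (trivialCofibrations 𝒟).inverseImage F
  map_fibrations : fibrations 𝒟 ≤ (fibrations 𝒞).inverseImage G
  map_trivialFibrations : trivialFibrations 𝒟 ≤ (trivialFibrations 𝒞).inverseImage G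
  leftDerived : ∃ _ : (F ⋙ (weakEquivalences 𝒟).Q).HasLeftDerivedFunctor (weakEquivalences 𝒞),
    ((F ⋙ (weakEquivalences 𝒟).Q).totalLeftDerived (weakEquivalences 𝒞).Q
      (weakEquivalences 𝒞)).IsEquivalence
  rightDerived : ∃ _ : (G ⋙ (weakEquivalences 𝒞).Q).HasRightDerivedFunctor (weakEquivalences 𝒟),
    ((G ⋙ (weakEquivalences 𝒞).Q).totalRightDerived (weakEquivalences 𝒟).Q
      (weakEquivalences 𝒟)).IsEquivalence
  adjunct : ∀ (X : 𝒞) (Y : 𝒟), IsCofibrant X → IsFibrant Y → ∀ f : F.obj X ⟶ Y,
    WeakEquivalence f ↔ WeakEquivalence (adj.homEquiv X Y f)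

private theorem homotopy_iff {A B : SSet.{0}} (a b : A ⟶ B) :
    Nonempty (SSet.Homotopy a b) ↔ Vale.Agent.P213.SS.HR a b := by
  constructor
  · rintro ⟨H⟩
    exact ⟨H.h, SSet.Homotopy.h₀ H, SSet.Homotopy.h₁ H⟩
  · rintro ⟨h, h0, h1⟩
    refine ⟨{ h := h, h₀ := h0, h₁ := h1, rel := ?_ }⟩
    ext n x
    exact x.1.2.elim

private theorem weq_eq' : WeakHomotopyEq = WeakHomotopyEquivalence := by
  rw [whe_eq]
  ext X Y f
  rw [Vale.Agent.P213.SS.weq_iff]
  unfold WeakHomotopyEq
  simp only [homotopy_iff]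

private theorem kan_eq : IsKanFibration = KanFibration := by
  ext X Y p
  constructor
  · intro h A B i hi
    simp only [SSet.modelCategoryQuillen.J, MorphismProperty.iSup_iff] at hi
    obtain ⟨m, ⟨k⟩⟩ := hi
    exact h m k
  · intro h m k
    exact h _ (SSet.modelCategoryQuillen.horn_ι_mem_J _ _)

/-- a model structure in the sense of `P213G` as a `ModelCategory` -/
private theorem exists_model {M : Type*} [Category M] {C W F : MorphismProperty M}
    (h : IsModelStructure C W F) : ∃ _ : ModelCategory M,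
      weakEquivalences M = W ∧ fibrations M = F ∧ cofibrations M = C := by
  let i1 : CategoryWithCofibrations M := ⟨C⟩
  let i2 : CategoryWithFibrations M := ⟨F⟩
  let i3 : CategoryWithWeakEquivalences M := ⟨W⟩
  have := h.limits
  have := h.colimits
  have : HasFiniteLimits M := hasFiniteLimits_of_hasLimitsOfSize.{0, 0} M
  have : HasFiniteColimits M := hasFiniteColimits_of_hasColimitsOfSize.{0, 0} M
  have : (weakEquivalences M).HasTwoOutOfThreeProperty := h.two_out_of_three
  have : IsWeakFactorizationSystem (cofibrations M) (trivialFibrations M) := h.cof_trivialFib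
  have : IsWeakFactorizationSystem (trivialCofibrations M) (fibrations M) := h.trivialCof_fib
  exact ⟨ModelCategory.mk' M, rfl, rfl, rfl⟩

/-- a map is in `W_n` iff its adjunct under `c Sd² ⊣ Ex² N_n` is a weak homotopy equivalence -/
private theorem adjunct_iff {n : ℕ∞} (hn : 1 ≤ n) {c : SSet.{0} ⥤ NCat n} (adj : c ⊣ nerve n)
    (X : SSet.{0}) (Y : NCat n) (f : (SSet.sd ⋙ SSet.sd ⋙ c).obj X ⟶ Y) :
    classW n f ↔ WeakHomotopyEquivalence
      (((SSet.sdExAdjunction.comp SSet.sdExAdjunction).comp adj).homEquiv X Y f) := by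
  obtain ⟨-, -, h3⟩ := (Vale.Agent.P213.thomason_of_sdDwyer Vale.Agent.P213.sdsd_dwyer n hn).2
    _ (oldAdj adj)
  have h4 := h3 X ((eqv n).functor.obj Y) ((eqv n).functor.map f)
  rw [classW_iff]
  refine h4.trans ?_
  have h5 : (SSet.sdExAdjunction.comp (SSet.sdExAdjunction.comp (oldAdj adj))).homEquiv X
      ((eqv n).functor.obj Y) ((eqv n).functor.map f) =
      ((SSet.sdExAdjunction.comp SSet.sdExAdjunction).comp adj).homEquiv X Y f ≫
        SSet.ex.map (SSet.ex.map (theta Y).hom) := by
    have e1 : (SSet.sdExAdjunction.comp (SSet.sdExAdjunction.comp (oldAdj adj))).homEquiv X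
        ((eqv n).functor.obj Y) ((eqv n).functor.map f) =
        SSet.sdExAdjunction.homEquiv _ _ (SSet.sdExAdjunction.homEquiv _ _
          ((oldAdj adj).homEquiv _ ((eqv n).functor.obj Y) ((eqv n).functor.map f))) := by
      rw [Adjunction.comp_homEquiv, Adjunction.comp_homEquiv]
      rfl
    have e2 : ((SSet.sdExAdjunction.comp SSet.sdExAdjunction).comp adj).homEquiv X Y f =
        SSet.sdExAdjunction.homEquiv _ _ (SSet.sdExAdjunction.homEquiv _ _
          (adj.homEquiv _ Y f)) := by
      rw [Adjunction.comp_homEquiv, Adjunction.comp_homEquiv]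
      rfl
    rw [e1, e2, oldAdj_homEquiv, Adjunction.homEquiv_naturality_right,
      Adjunction.homEquiv_naturality_right]
  rw [h5, whe_eq, ← weq_eq]
  exact cancel_right_of_respectsIso Vale.Agent.P213.SS.weq _ _

private theorem quillen_of {𝒞 𝒟 : Type*} [Category 𝒞] [ModelCategory 𝒞] [Category 𝒟]
    [ModelCategory 𝒟] {F : 𝒞 ⥤ 𝒟} {G : 𝒟 ⥤ 𝒞} (adj : F ⊣ G)
    (hf : fibrations 𝒟 ≤ (fibrations 𝒞).inverseImage G)
    (hw : weakEquivalences 𝒟 ≤ (weakEquivalences 𝒞).inverseImage G)
    (key : ∀ (X : 𝒞) (Y : 𝒟) (f : F.obj X ⟶ Y),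
      weakEquivalences 𝒟 f ↔ weakEquivalences 𝒞 (adj.homEquiv X Y f)) : IsQuillenEquiv adj := by
  have htf : trivialFibrations 𝒟 ≤ (trivialFibrations 𝒞).inverseImage G :=
    fun X Y p hp => ⟨hf _ hp.1, hw _ hp.2⟩
  have hid𝒞 : ∀ X : 𝒞, weakEquivalences 𝒞 (𝟙 X) := fun X =>
    (weakEquivalence_iff _).1 inferInstance
  have hid𝒟 : ∀ X : 𝒟, weakEquivalences 𝒟 (𝟙 X) := fun X =>
    (weakEquivalence_iff _).1 inferInstance
  have hη : ∀ X, weakEquivalences 𝒞 (adj.unit.app X) := by
    intro X
    have h := (key X _ (𝟙 _)).1 (hid𝒟 _)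
    rwa [Adjunction.homEquiv_id] at h
  have hε : ∀ Y, weakEquivalences 𝒟 (adj.counit.app Y) := by
    intro Y
    rw [key, Adjunction.homEquiv_unit, Adjunction.right_triangle_components]
    exact hid𝒞 _
  have hF : weakEquivalences 𝒞 ≤ (weakEquivalences 𝒟).inverseImage F := by
    intro X X' u hu
    change weakEquivalences 𝒟 (F.map u)
    rw [key, Adjunction.homEquiv_unit, Adjunction.unit_naturality]
    exact MorphismProperty.comp_mem _ _ _ hu (hη X')
  have hd := Derived.derived (WC := weakEquivalences 𝒞) (WD := weakEquivalences 𝒟) adj hη hε hF hw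
  refine ⟨?_, ?_, hf, htf, hd.1, hd.2, ?_⟩
  · intro X Y i hi
    change cofibrations 𝒟 (F.map i)
    rw [← trivialFibrations_llp]
    intro A B p hp
    rw [adj.hasLiftingProperty_iff]
    rw [← trivialFibrations_llp] at hi
    exact hi _ (htf _ hp)
  · intro X Y i hi
    change trivialCofibrations 𝒟 (F.map i)
    rw [← fibrations_llp]
    intro A B p hp
    rw [adj.hasLiftingProperty_iff]
    rw [← fibrations_llp] at hi
    exact hi _ (hf _ hp)
  · intro X Y _ _ f
    rw [weakEquivalence_iff, weakEquivalence_iff]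
    exact key X Y f

/-- **The Ara-Maltsiniotis conjecture**, for all `1 ≤ n ≤ ω`.  The category `n-Cat` has small limits
and colimits; there are model structures on simplicial sets with the weak homotopy equivalences,
Kan fibrations and monomorphisms, and on `n-Cat` with
`W_n = {f : N_n f is a weak homotopy equivalence}`, `F_n = {f : Ex² N_n f is a Kan fibration}` and
`C_n` = the maps with the left lifting property against `F_n ∩ W_n`; the Street nerve `N_n` has a
left adjoint; and for every left adjoint `c` of `N_n` the adjunction `c Sd² ⊣ Ex² N_n` is a Quillen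
equivalence. -/
theorem result (n : ℕ∞) (hn : 1 ≤ n) :
    HasLimitsOfSize.{0, 0} (NCat n) ∧ HasColimitsOfSize.{0, 0} (NCat n) ∧
    ∃ (_ : ModelCategory SSet.{0}) (_ : ModelCategory (NCat n)),
      (weakEquivalences SSet.{0} = WeakHomotopyEq ∧ fibrations SSet.{0} = IsKanFibration ∧
        cofibrations SSet.{0} = monomorphisms SSet.{0}) ∧
      (weakEquivalences (NCat n) = WeakHomotopyEq.inverseImage (nerve n) ∧
        fibrations (NCat n) = IsKanFibration.inverseImage (nerve n ⋙ SSet.ex ⋙ SSet.ex) ∧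
        cofibrations (NCat n) = (IsKanFibration.inverseImage (nerve n ⋙ SSet.ex ⋙ SSet.ex) ⊓
          WeakHomotopyEq.inverseImage (nerve n)).llp) ∧
      (nerve n).IsRightAdjoint ∧
      ∀ (c : SSet.{0} ⥤ NCat n) (adj : c ⊣ nerve n),
        IsQuillenEquiv ((SSet.sdExAdjunction.comp SSet.sdExAdjunction).comp adj) := by
  refine ⟨(isModelStructure_nCat n hn).limits, (isModelStructure_nCat n hn).colimits, ?_⟩
  obtain ⟨K, hKW, hKF, hKC⟩ := exists_model isModelStructure_sset
  obtain ⟨M, hMW, hMF, hMC⟩ := exists_model (isModelStructure_nCat n hn)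
  have eW : WeakHomotopyEq.inverseImage (nerve n) = classW n := by rw [weq_eq']; rfl
  have eF : IsKanFibration.inverseImage (nerve n ⋙ SSet.ex ⋙ SSet.ex) = classF n := by
    rw [kan_eq]; rfl
  refine ⟨K, M, ⟨hKW.trans weq_eq'.symm, hKF.trans kan_eq.symm, hKC⟩,
    ⟨hMW.trans eW.symm, hMF.trans eF.symm, ?_⟩, nerve_isRightAdjoint n, ?_⟩
  · rw [eW, eF]
    exact hMC
  intro c adj
  refine quillen_of _ ?_ ?_ ?_
  · intro X Y p hp
    rw [hMF] at hp
    change fibrations SSet.{0} _
    rw [hKF]
    exact hp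
  · intro X Y p hp
    rw [hMW] at hp
    change weakEquivalences SSet.{0} _
    rw [hKW, whe_eq]
    unfold classW at hp
    rw [whe_eq] at hp
    change Vale.Agent.P213.SS.weq (SSet.ex.map (SSet.ex.map ((nerve n).map p)))
    rw [Vale.Agent.P213.SS.weq_ex_map_iff, Vale.Agent.P213.SS.weq_ex_map_iff]
    exact hp
  · intro X Y f
    rw [hMW, hKW]
    exact adjunct_iff hn adj X Y f

end Vale.Agent.Results.P213.ThomasonDerived
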