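import Vale.Agent.Lib.P213G.Main

/-!
# P213: the Ara-Maltsiniotis conjecture, globular form

For every `1 ≤ n ≤ ω` the classes `(C_n, W_n, F_n)` are a model structure on the category of small
strict globular `n`-categories, and `c_n Sd² ⊣ Ex² N_n` is a Quillen equivalence with the
Kan-Quillen model structure on simplicial sets.
-/

open CategoryTheory MorphismProperty

namespace Vale.Agent.Results.P213.ThomasonGlobular

open Vale.Agent.P213G

theorem result (n : ℕ∞) (hn : 1 ≤ n) :
    IsModelStructure (classC n) (classW n) (classF n) ∧
    IsModelStructure (monomorphisms SSet.{0}) WeakHomotopyEquivalence KanFibration ∧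
    (nerve n).IsRightAdjoint ∧
    ∀ (c : SSet.{0} ⥤ NCat n) (adj : c ⊣ nerve n),
      IsQuillenEquivalence (monomorphisms SSet.{0}) WeakHomotopyEquivalence KanFibration
        (classC n) (classW n) (classF n)
        ((SSet.sdExAdjunction.comp SSet.sdExAdjunction).comp adj) :=
  ⟨isModelStructure_nCat n hn, isModelStructure_sset, nerve_isRightAdjoint n,
    fun _ adj => quillen adj hn⟩

end Vale.Agent.Results.P213.ThomasonGlobular
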